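import Crest.Agent.H9.ZD1

/-! Cutting the faces of a planar map into segments; Euler's inequality. -/

namespace Crest.Agent.H3.ZD

open Crest.Agent.H9.ZD Finset Equiv Equiv.Perm

variable {D : Type}

theorem pow_app (φ : Perm D) (i j : ℕ) (x : D) : (φ ^ i) ((φ ^ j) x) = (φ ^ (i + j)) x := by
  rw [pow_add, Perm.mul_apply]

theorem pow_succ_app (φ : Perm D) (i : ℕ) (x : D) : (φ ^ (i + 1)) x = φ ((φ ^ i) x) := by
  rw [pow_succ', Perm.mul_apply]

theorem exists_cut [Finite D] (φ : Perm D) (st : D) {m : ℕ} (hm : 0 < m) : ∃ C : Set D, st ∈ C ∧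
    (∀ x ∈ C, x ≠ st → ∀ i, 0 < i → i < m → (φ ^ i) x ∈ C → (φ ^ i) x = x) ∧
    ∀ d, ∃ i, 0 < i ∧ i ≤ 2 * m ∧ (φ ^ i) d ∈ C := by
  let P : Set D → Prop := fun C => st ∈ C ∧
    ∀ x ∈ C, x ≠ st → ∀ i, 0 < i → i < m → (φ ^ i) x ∈ C → (φ ^ i) x = x
  obtain ⟨C, hC, hmax⟩ := Set.Finite.exists_maximal (s := {C | P C}) (Set.toFinite _)
    ⟨{st}, rfl, fun x hx hx' => absurd hx hx'⟩
  refine ⟨C, hC.1, hC.2, fun d => ?_⟩
  by_contra hno
  push Not at hno
  have : P (insert ((φ ^ m) d) C) := by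
    refine ⟨Set.mem_insert_of_mem _ hC.1, fun x hx hx' i h0 hi h => ?_⟩
    rcases hx with rfl | hx
    · rcases h with h | h
      · exact h
      · rw [pow_app] at h
        exact absurd h (hno _ (by omega) (by omega))
    · rcases h with h | h
      · have : x = (φ ^ (m - i)) d := by
          apply (φ ^ i).injective
          rw [h, pow_app]
          congr 2
          omega
        exact absurd (this ▸ hx) (hno _ (by omega) (by omega))
      · exact hC.2 x hx hx' i h0 hi h
  exact hno m hm (by omega) (hmax this (Set.subset_insert _ _) (Set.mem_insert _ _))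

/-- a decomposition of the cycles of `φ` into segments -/
structure Seg (φ : Perm D) (st : D) (m : ℕ) where
  C : Set D
  n : D → ℕ
  base : D → D
  idx : D → ℕ
  st_mem : st ∈ C
  sep : ∀ x ∈ C, x ≠ st → n x < m → (φ ^ n x) x = x
  n_pos : ∀ x, 0 < n x
  n_le : ∀ x, n x ≤ 2 * m
  n_mem : ∀ x, (φ ^ n x) x ∈ C
  n_min : ∀ x i, 0 < i → i < n x → (φ ^ i) x ∉ C
  base_mem : ∀ d, base d ∈ C
  idx_lt : ∀ d, idx d < n (base d)
  base_idx : ∀ d, (φ ^ idx d) (base d) = d
  uniq : ∀ x ∈ C, ∀ i, i < n x → base ((φ ^ i) x) = x ∧ idx ((φ ^ i) x) = i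

theorem exists_seg [Finite D] (φ : Perm D) (st : D) {m : ℕ} (hm : 0 < m) :
    Nonempty (Seg φ st m) := by
  classical
  obtain ⟨C, h1, h2, h3⟩ := exists_cut φ st hm
  have h4 : ∀ d, ∃ i, 0 < i ∧ (φ ^ i) d ∈ C := fun d =>
    (h3 d).imp fun i hi => ⟨hi.1, hi.2.2⟩
  let n : D → ℕ := fun d => Nat.find (h4 d)
  have n_pos : ∀ x, 0 < n x := fun x => (Nat.find_spec (h4 x)).1
  have n_mem : ∀ x, (φ ^ n x) x ∈ C := fun x => (Nat.find_spec (h4 x)).2
  have n_min : ∀ x i, 0 < i → i < n x → (φ ^ i) x ∉ C := fun x i h0 hi h =>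
    Nat.find_min (h4 x) hi ⟨h0, h⟩
  have n_le : ∀ x, n x ≤ 2 * m := fun x => by
    obtain ⟨i, a, b, c⟩ := h3 x
    exact (Nat.find_min' (h4 x) ⟨a, c⟩).trans b
  have ex : ∀ d, ∃ p : D × ℕ, p.1 ∈ C ∧ p.2 < n p.1 ∧ (φ ^ p.2) p.1 = d := by
    intro d
    have h5 : ∃ j, ∃ x ∈ C, (φ ^ j) x = d := by
      obtain ⟨i, a, b, c⟩ := h3 ((φ ^ (2 * m)).symm d)
      refine ⟨2 * m - i, _, c, ?_⟩
      rw [pow_app, show 2 * m - i + i = 2 * m by omega]
      simp
    obtain ⟨x, hx, hj⟩ := Nat.find_spec h5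
    refine ⟨(x, Nat.find h5), hx, ?_, hj⟩
    by_contra hlt
    simp only [not_lt] at hlt
    refine Nat.find_min h5 (m := Nat.find h5 - n x) (by have := n_pos x; omega)
      ⟨_, n_mem x, ?_⟩
    rw [pow_app, show Nat.find h5 - n x + n x = Nat.find h5 by omega]
    exact hj
  choose p hp using ex
  have un : ∀ x ∈ C, ∀ y ∈ C, ∀ i j, i ≤ j → j < n y → (φ ^ i) x = (φ ^ j) y → x = y ∧ i = j := by
    intro x hx y _ i j hij hj h
    have : x = (φ ^ (j - i)) y := by
      apply (φ ^ i).injective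
      rw [h, pow_app]
      congr 2
      omega
    by_cases e : i = j
    · subst e
      exact ⟨by simpa using this, rfl⟩
    · exact absurd (this ▸ hx) (n_min y _ (by omega) (by omega))
  refine ⟨⟨C, n, fun d => (p d).1, fun d => (p d).2, h1, fun x hx hx' h =>
    h2 x hx hx' _ (n_pos x) h (n_mem x), n_pos, n_le, n_mem, n_min, fun d => (hp d).1,
    fun d => (hp d).2.1, fun d => (hp d).2.2, fun x hx i hi => ?_⟩⟩
  obtain ⟨a, b, c⟩ := hp ((φ ^ i) x)
  rcases le_total i (p ((φ ^ i) x)).2 with h | h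
  · have := un x hx _ a i _ h b c.symm
    exact ⟨this.1.symm, this.2.symm⟩
  · exact un _ a x hx _ i h hi c

theorem exists_psi [Finite D] {φ α : Perm D} (h : Planar φ α) (C : Set D) :
    ∃ ψ : Perm D, Planar ψ α ∧ (∀ d, ψ d = φ d ∨ (ψ d ∈ C ∧ φ d ∈ C)) ∧
      ∀ x ∈ C, ∀ y ∈ C, ψ.SameCycle x y → x = y := by
  classical
  obtain ⟨ψ, hψ, hmax⟩ := Set.exists_max_image
    {ψ : Perm D | Planar ψ α ∧ ∀ d, ψ d = φ d ∨ (ψ d ∈ C ∧ φ d ∈ C)} cyc (Set.toFinite _)
    ⟨φ, h, fun d => Or.inl rfl⟩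
  refine ⟨ψ, hψ.1, hψ.2, fun x hx y hy hs => ?_⟩
  by_contra hxy
  have := hmax (swap x y * ψ) ⟨hψ.1.split hs, fun d => ?_⟩
  · rw [cyc_split hxy hs] at this
    omega
  · rw [Perm.mul_apply]
    by_cases h1 : ψ d = x
    · right
      rw [h1, swap_apply_left]
      exact ⟨hy, (hψ.2 d).elim (fun e => e ▸ h1 ▸ hx) (·.2)⟩
    by_cases h2 : ψ d = y
    · right
      rw [h2, swap_apply_right]
      exact ⟨hx, (hψ.2 d).elim (fun e => e ▸ h2 ▸ hy) (·.2)⟩
    rw [swap_apply_of_ne_of_ne h1 h2]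
    exact hψ.2 d

theorem noK5_of_inj {ι κ : Type} {A : ι → ι → Prop} {B : κ → κ → Prop} (f : ι → κ)
    (hf : Function.Injective f) (h : ∀ p q, A p q → B (f p) (f q)) (hB : NoK5 B) : NoK5 A := by
  rintro ⟨T, h1, h2, h3⟩
  refine hB ⟨fun i => f '' T i, fun i j hij => (Set.disjoint_image_iff hf).2 (h1 i j hij), ?_, ?_⟩
  · rintro i _ ⟨u, hu, rfl⟩ _ ⟨v, hv, rfl⟩
    have := h2 i u hu v hv
    clear hv
    induction this with
    | refl => exact Relation.ReflTransGen.refl
    | tail _ hpq ih =>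
      exact ih.tail ⟨⟨_, hpq.1, rfl⟩, ⟨_, hpq.2.1, rfl⟩, h _ _ hpq.2.2⟩
  · intro i j hij
    obtain ⟨u, hu, v, hv, huv⟩ := h3 i j hij
    exact ⟨f u, ⟨u, hu, rfl⟩, f v, ⟨v, hv, rfl⟩, h u v huv⟩

theorem Seg.noK5 (hk : T4k) [Finite D] {φ α : Perm D} {st : D} {m : ℕ} (s : Seg φ st m)
    (hα : ∀ d, α (α d) = d) (h : Planar φ α) :
    NoK5 fun x y : s.C => ∃ d, s.base d = x ∧ s.base (α d) = y := by
  obtain ⟨ψ, h1, h2, h3⟩ := exists_psi h s.C
  have h4 : ∀ x i, i < s.n x → (ψ ^ i) x = (φ ^ i) x := by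
    intro x i
    induction i with
    | zero => intro; rfl
    | succ i ih =>
      intro hi
      rw [pow_succ_app, ih (by omega), pow_succ_app]
      refine (h2 _).resolve_right fun hc => s.n_min x (i + 1) (by omega) hi ?_
      rw [pow_succ_app]
      exact hc.2
  have h5 : ∀ d, (Quotient.mk _ (s.base d) : Quotient (SameCycle.setoid ψ)) = Quotient.mk _ d := by
    intro d
    refine Quotient.sound ⟨s.idx d, ?_⟩
    rw [zpow_natCast, h4 _ _ (s.idx_lt d), s.base_idx]
  refine noK5_of_inj (fun x : s.C => Quotient.mk _ x.1) (fun x y hxy => ?_) ?_ (hk D ψ α hα h1)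
  · exact Subtype.ext (h3 _ x.2 _ y.2 (Quotient.exact hxy))
  · rintro x y ⟨d, hd, hd'⟩
    exact ⟨d, by rw [← hd, h5], by rw [← hd', h5]⟩

theorem Seg.cyc_le [Finite D] {φ : Perm D} {st : D} {m : ℕ} (s : Seg φ st m) :
    cyc φ ≤ Nat.card s.C := by
  refine Nat.card_le_card_of_surjective (fun x : s.C => Quotient.mk _ x.1) fun q => ?_
  induction q using Quotient.inductionOn with | h d => ?_
  exact ⟨⟨s.base d, s.base_mem d⟩, Quotient.sound ⟨s.idx d, by rw [zpow_natCast, s.base_idx]⟩⟩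

open Classical in
/-- Euler: few sides at vertices of degree at least three, and at least two faces -/
theorem euler [Fintype D] {φ α : Perm D} {st : D} (h : Planar φ α) (hα : ∀ d, α (α d) = d)
    (hst : α st = st) (hne : ∀ d, d ≠ st → α d ≠ d) (hσ : ∀ d, d ≠ st → φ (α d) ≠ d)
    (hd : ∃ d, d ≠ st) :
    (univ.filter fun d => φ (α (φ (α d))) ≠ d).card + 6 ≤ 6 * cyc φ ∧ 2 ≤ cyc φ := by
  have : Nonempty D := ⟨st⟩
  have h1 : (cyc α : ℝ) ≤ ∑ y, (1 / 2 + if y = st then 1 / 2 else 0 : ℝ) := by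
    refine cyc_le_sum α _ fun x => ?_
    by_cases hx : x = st
    · subst hx
      refine le_trans ?_ (single_le_sum (a := x) (fun y _ => by positivity) (by
        simpa using SameCycle.refl α x))
      norm_num
    · refine le_trans ?_ (sum_le_sum_of_subset_of_nonneg (s := {x, α x}) ?_
        (fun y _ _ => by positivity))
      · rw [sum_pair (hne x hx).symm]
        have a : (0 : ℝ) ≤ if x = st then 1 / 2 else 0 := by positivity
        have b : (0 : ℝ) ≤ if α x = st then 1 / 2 else 0 := by positivity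
        linarith
      · intro y hy
        simp only [mem_insert, mem_singleton] at hy
        rcases hy with rfl | rfl
        · simpa using SameCycle.refl α y
        · simpa using SameCycle.refl α x
  set σ := φ * α with hσd
  have σa : ∀ d, σ d = φ (α d) := fun d => rfl
  let w : D → ℝ := fun y => 1 / 2 + (if σ y = y then 1 / 2 else 0) - if σ (σ y) ≠ y then 1 / 6 else 0
  have w3 : ∀ y, 1 / 3 ≤ w y := fun y => by
    simp only [w]
    split_ifs <;> norm_num
  have w2 : ∀ y, σ (σ y) = y → 1 / 2 ≤ w y := fun y hy => by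
    simp only [w, hy]
    split_ifs <;> simp_all
  have h2 : (cyc σ : ℝ) ≤ ∑ y, w y := by
    refine cyc_le_sum σ _ fun x => ?_
    have w0 : ∀ y, 0 ≤ w y := fun y => le_trans (by norm_num) (w3 y)
    by_cases hx : σ x = x
    · refine le_trans ?_ (single_le_sum (a := x) (fun y _ => w0 y) (by
        simpa using SameCycle.refl σ x))
      simp only [w, hx]
      norm_num
    by_cases hx2 : σ (σ x) = x
    · refine le_trans ?_ (sum_le_sum_of_subset_of_nonneg (s := {x, σ x}) ?_ (fun y _ _ => w0 y))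
      · rw [sum_pair (Ne.symm hx)]
        have a := w2 x hx2
        have b := w2 (σ x) (by rw [hx2])
        linarith
      · intro y hy
        simp only [mem_insert, mem_singleton] at hy
        rcases hy with rfl | rfl
        · simpa using SameCycle.refl σ y
        · simpa using SameCycle.refl σ x
    · refine le_trans ?_ (sum_le_sum_of_subset_of_nonneg (s := {x, σ x, σ (σ x)}) ?_
        (fun y _ _ => w0 y))
      · rw [sum_insert (by simp [Ne.symm hx, Ne.symm hx2]),
          sum_pair (fun e => hx (σ.injective e).symm)]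
        have a := w3 x
        have b := w3 (σ x)
        have c := w3 (σ (σ x))
        linarith
      · intro y hy
        simp only [mem_insert, mem_singleton] at hy
        rcases hy with rfl | rfl | rfl
        · simpa using SameCycle.refl σ y
        · simpa using SameCycle.refl σ x
        · simpa using SameCycle.refl σ x
  have e1 : ∑ y : D, (1 / 2 + if y = st then 1 / 2 else 0 : ℝ) = Fintype.card D / 2 + 1 / 2 := by
    rw [sum_add_distrib, sum_ite_eq']
    simp
    ring
  have e2 : ∑ y, w y = Fintype.card D / 2 + (univ.filter fun y => σ y = y).card / 2 -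
      (univ.filter fun d => φ (α (φ (α d))) ≠ d).card / 6 := by
    simp only [w]
    rw [sum_sub_distrib, sum_add_distrib, ← sum_filter, ← sum_filter]
    simp only [sum_const, card_univ, nsmul_eq_mul, σa]
    ring
  have hc : 1 ≤ comp φ α := comp_pos φ α
  have hP : (Fintype.card D : ℝ) + 2 ≤ cyc φ + cyc α + cyc σ := by
    unfold Planar at h
    rw [Nat.card_eq_fintype_card, ← hσd] at h
    have : Fintype.card D + 2 ≤ cyc φ + cyc α + cyc σ := by omega
    exact_mod_cast this
  have hf : (univ.filter fun y => σ y = y) ⊆ {st} := by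
    intro y hy
    by_contra hy'
    exact hσ y (by simpa using hy') (by simpa [σa] using hy)
  have hf1 : ((univ.filter fun y => σ y = y).card : ℝ) ≤ 1 := by
    exact_mod_cast (card_le_card hf).trans (by simp)
  constructor
  · have : ((univ.filter fun d => φ (α (φ (α d))) ≠ d).card : ℝ) + 6 ≤ 6 * cyc φ := by linarith
    exact_mod_cast this
  · by_cases hφ : φ st = st
    · obtain ⟨d, hd⟩ := hd
      have : Nontrivial (Quotient (SameCycle.setoid φ)) := ⟨Quotient.mk _ st, Quotient.mk _ d,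
        fun e => hd ((Quotient.exact e : φ.SameCycle st d).eq_of_left hφ).symm⟩
      exact Finite.one_lt_card
    · have : (univ.filter fun y => σ y = y) = ∅ := by
        refine eq_empty_of_forall_notMem fun y hy => ?_
        have := mem_singleton.1 (hf hy)
        subst this
        exact hφ (by simpa [σa, hst] using hy)
      rw [this] at e2
      have b0 : (0 : ℝ) ≤ (univ.filter fun d => φ (α (φ (α d))) ≠ d).card := by positivity
      have : (1 : ℝ) < cyc φ := by
        simp only [card_empty, Nat.cast_zero] at e2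
        linarith
      exact_mod_cast this

end Crest.Agent.H3.ZD
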