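import Crest.Agent.H9.ZD0

/-! Plotkin-Rao-Smith separator theorem for graphs without a `K₅` minor. -/

namespace Crest.Agent.H3.ZD

open Crest.Agent.H9.ZD Finset

section
variable {ι : Type} (Adj : ι → ι → Prop)

/-- the set `T` is connected -/
def Cn (T : Finset ι) : Prop := ∀ u ∈ T, ∀ v ∈ T,
  Relation.ReflTransGen (fun p q => p ∈ T ∧ q ∈ T ∧ Adj p q) u v

variable {Adj}

theorem reach_mono {T T' : Finset ι} (h : T ⊆ T') {u v : ι}
    (huv : Relation.ReflTransGen (fun p q => p ∈ T ∧ q ∈ T ∧ Adj p q) u v) :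
    Relation.ReflTransGen (fun p q => p ∈ T' ∧ q ∈ T' ∧ Adj p q) u v :=
  Relation.ReflTransGen.mono (fun _ _ hpq => ⟨h hpq.1, h hpq.2.1, hpq.2.2⟩) _ _ huv

theorem Cn.union [DecidableEq ι] {T T' : Finset ι} (h : Cn Adj T) (h' : Cn Adj T') {z : ι}
    (hz : z ∈ T) (hz' : z ∈ T') : Cn Adj (T ∪ T') := by
  have a : ∀ u ∈ T ∪ T', Relation.ReflTransGen
      (fun p q => p ∈ T ∪ T' ∧ q ∈ T ∪ T' ∧ Adj p q) u z := by
    intro u hu
    rcases mem_union.1 hu with hu | hu
    · exact reach_mono subset_union_left (h u hu z hz)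
    · exact reach_mono subset_union_right (h' u hu z hz')
  have b : ∀ u ∈ T ∪ T', Relation.ReflTransGen
      (fun p q => p ∈ T ∪ T' ∧ q ∈ T ∪ T' ∧ Adj p q) z u := by
    intro u hu
    rcases mem_union.1 hu with hu | hu
    · exact reach_mono subset_union_left (h z hz u hu)
    · exact reach_mono subset_union_right (h' z hz' u hu)
  intro u hu v hv
  exact (a u hu).trans (b v hv)

theorem cn_single (v : ι) : Cn Adj {v} := by
  intro a ha b hb
  rw [mem_singleton] at ha hb
  subst ha hb
  exact Relation.ReflTransGen.refl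

theorem cn_pair [DecidableEq ι] (hs : ∀ p q, Adj p q → Adj q p) {u v : ι} (h : Adj u v) :
    Cn Adj {u, v} := by
  intro a ha b hb
  simp only [mem_insert, mem_singleton] at ha hb
  rcases ha with rfl | rfl <;> rcases hb with rfl | rfl
  · exact Relation.ReflTransGen.refl
  · exact Relation.ReflTransGen.single ⟨by simp, by simp, h⟩
  · exact Relation.ReflTransGen.single ⟨by simp, by simp, hs _ _ h⟩
  · exact Relation.ReflTransGen.refl

open Classical in
/-- outer boundary of `X` inside `H` -/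
noncomputable def bd (Adj : ι → ι → Prop) (H X : Finset ι) : Finset ι :=
  H.filter fun v => v ∉ X ∧ ∃ u ∈ X, Adj u v

open Classical in
/-- balls inside `H` -/
noncomputable def ball (Adj : ι → ι → Prop) (H : Finset ι) (v : ι) : ℕ → Finset ι
  | 0 => {v}
  | k + 1 => ball Adj H v k ∪ bd Adj H (ball Adj H v k)

theorem mem_bd {H X : Finset ι} {v : ι} :
    v ∈ bd Adj H X ↔ v ∈ H ∧ v ∉ X ∧ ∃ u ∈ X, Adj u v := by
  simp [bd]

theorem ball_sub {H : Finset ι} {v : ι} (hv : v ∈ H) : ∀ k, ball Adj H v k ⊆ H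
  | 0 => by simpa [ball] using hv
  | k + 1 => by
    intro x hx
    simp only [ball, mem_union] at hx
    rcases hx with hx | hx
    · exact ball_sub hv k hx
    · exact (mem_bd.1 hx).1

theorem self_mem_ball {H : Finset ι} {v : ι} : ∀ k, v ∈ ball Adj H v k
  | 0 => by simp [ball]
  | k + 1 => by
    simp only [ball, mem_union]
    exact Or.inl (self_mem_ball k)

theorem ball_path [DecidableEq ι] (hs : ∀ p q, Adj p q → Adj q p) {H : Finset ι} {v : ι}
    (hv : v ∈ H) : ∀ k, ∀ x ∈ ball Adj H v k,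
      ∃ T : Finset ι, T ⊆ H ∧ T.card ≤ k + 1 ∧ v ∈ T ∧ x ∈ T ∧ Cn Adj T
  | 0 => by
    intro x hx
    simp only [ball, mem_singleton] at hx
    subst hx
    exact ⟨{x}, by simpa using hv, by simp, by simp, by simp, cn_single x⟩
  | k + 1 => by
    intro x hx
    simp only [ball, mem_union] at hx
    rcases hx with hx | hx
    · obtain ⟨T, h1, h2, h3, h4, h5⟩ := ball_path hs hv k x hx
      exact ⟨T, h1, by omega, h3, h4, h5⟩
    · obtain ⟨hxH, -, u, hu, hux⟩ := mem_bd.1 hx
      obtain ⟨T, h1, h2, h3, h4, h5⟩ := ball_path hs hv k u hu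
      refine ⟨T ∪ {u, x}, ?_, ?_, by simp [h3], by simp, h5.union (cn_pair hs hux) h4 (by simp)⟩
      · intro y hy
        simp only [mem_union, mem_insert, mem_singleton] at hy
        rcases hy with hy | rfl | rfl
        · exact h1 hy
        · exact h1 h4
        · exact hxH
      · have : T ∪ {u, x} = insert x T := by
          ext y
          simp only [mem_union, mem_insert, mem_singleton]
          constructor
          · rintro (h | rfl | rfl)
            · exact Or.inr h
            · exact Or.inr h4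
            · exact Or.inl rfl
          · rintro (rfl | h)
            · exact Or.inr (Or.inr rfl)
            · exact Or.inl h
        rw [this]
        exact (card_insert_le _ _).trans (by omega)

theorem ball_grow {H : Finset ι} {l : ℕ} (hl : 0 < l)
    (hexp : ∀ X : Finset ι, X ⊆ H → X.Nonempty → 2 * X.card ≤ H.card →
      X.card < l * (bd Adj H X).card) {v : ι} (hv : v ∈ H) :
    ∀ k, H.card < 2 * (ball Adj H v k).card ∨ (1 + 1 / (l : ℝ)) ^ k ≤ (ball Adj H v k).card
  | 0 => by simp [ball]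
  | k + 1 => by
    classical
    have hc : (ball Adj H v (k + 1)).card =
        (ball Adj H v k).card + (bd Adj H (ball Adj H v k)).card := by
      simp only [ball]
      rw [← card_union_of_disjoint]
      exact disjoint_left.2 fun x hx hx' => (mem_bd.1 hx').2.1 hx
    by_cases h : H.card < 2 * (ball Adj H v k).card
    · left
      omega
    · right
      have h1 := (ball_grow hl hexp hv k).resolve_left h
      have h2 := hexp (ball Adj H v k) (ball_sub hv k) ⟨v, self_mem_ball k⟩ (by omega)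
      have h3 : ((ball Adj H v k).card : ℝ) ≤ l * (bd Adj H (ball Adj H v k)).card := by
        exact_mod_cast h2.le
      have hl' : (0 : ℝ) < l := by exact_mod_cast hl
      rw [hc, pow_succ]
      push_cast
      calc (1 + 1 / (l : ℝ)) ^ k * (1 + 1 / l) ≤ (ball Adj H v k).card * (1 + 1 / (l : ℝ)) := by
            gcongr
        _ = (ball Adj H v k).card + (ball Adj H v k).card / (l : ℝ) := by ring
        _ ≤ _ := by
            gcongr
            rw [div_le_iff₀ hl']
            linarith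

theorem join_path [DecidableEq ι] (hs : ∀ p q, Adj p q → Adj q p) {H : Finset ι} {l R : ℕ}
    (hl : 0 < l) (hR : (H.card : ℝ) < (1 + 1 / (l : ℝ)) ^ R)
    (hexp : ∀ X : Finset ι, X ⊆ H → X.Nonempty → 2 * X.card ≤ H.card →
      X.card < l * (bd Adj H X).card) {u v : ι} (hu : u ∈ H) (hv : v ∈ H) :
    ∃ T : Finset ι, T ⊆ H ∧ T.card ≤ 2 * R + 2 ∧ u ∈ T ∧ v ∈ T ∧ Cn Adj T := by
  have big : ∀ x ∈ H, H.card < 2 * (ball Adj H x R).card := by
    intro x hx
    refine (ball_grow hl hexp hx R).resolve_right fun h => ?_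
    have : ((ball Adj H x R).card : ℝ) ≤ H.card := by
      exact_mod_cast card_le_card (ball_sub hx R)
    linarith
  have : ¬ Disjoint (ball Adj H u R) (ball Adj H v R) := by
    intro hd
    have h1 := card_union_of_disjoint hd
    have h2 : (ball Adj H u R ∪ ball Adj H v R).card ≤ H.card :=
      card_le_card (union_subset (ball_sub hu R) (ball_sub hv R))
    have := big u hu
    have := big v hv
    omega
  obtain ⟨z, hz, hz'⟩ := not_disjoint_iff.1 this
  obtain ⟨T, h1, h2, h3, h4, h5⟩ := ball_path hs hu R z hz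
  obtain ⟨T', h1', h2', h3', h4', h5'⟩ := ball_path hs hv R z hz'
  refine ⟨T ∪ T', union_subset h1 h1', (card_union_le _ _).trans (by omega), by simp [h3],
    by simp [h3'], h5.union h5' h4 h4'⟩

theorem new_branch [DecidableEq ι] {H : Finset ι} {b : ℕ} {v : ι} (hv : v ∈ H)
    (hj : ∀ u ∈ H, ∃ T : Finset ι, T ⊆ H ∧ T.card ≤ b ∧ u ∈ T ∧ v ∈ T ∧ Cn Adj T)
    (F : Finset (Finset ι)) (hF : ∀ A ∈ F, ∃ a ∈ A, ∃ u ∈ H, Adj a u) :
    ∃ T : Finset ι, T ⊆ H ∧ T.card ≤ 1 + F.card * b ∧ v ∈ T ∧ Cn Adj T ∧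
      ∀ A ∈ F, ∃ a ∈ A, ∃ u ∈ T, Adj a u := by
  induction F using Finset.induction_on with
  | empty => exact ⟨{v}, by simpa using hv, by simp, by simp, cn_single v, by simp⟩
  | insert A F hA ih =>
    obtain ⟨T, h1, h2, h3, h4, h5⟩ := ih fun B hB => hF B (mem_insert_of_mem hB)
    obtain ⟨a, ha, u, hu, hau⟩ := hF A (mem_insert_self _ _)
    obtain ⟨T', h1', h2', h3', h4', h5'⟩ := hj u hu
    refine ⟨T ∪ T', union_subset h1 h1', (card_union_le _ _).trans ?_, by simp [h3],
      h4.union h5' h3 h4', ?_⟩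
    · rw [card_insert_of_notMem hA]
      nlinarith
    · intro B hB
      rcases mem_insert.1 hB with rfl | hB
      · exact ⟨a, ha, u, by simp [h3'], hau⟩
      · obtain ⟨a, ha, u, hu, hau⟩ := h5 B hB
        exact ⟨a, ha, u, by simp [hu], hau⟩

theorem card_le_four (hK : NoK5 Adj) (F : Finset (Finset ι)) (hc : ∀ A ∈ F, Cn Adj A)
    (hp : ∀ A ∈ F, ∀ B ∈ F, A ≠ B → Disjoint A B ∧ ∃ a ∈ A, ∃ b ∈ B, Adj a b) : F.card ≤ 4 := by
  by_contra h
  obtain ⟨G, hG, hG5⟩ := exists_subset_card_eq (show 5 ≤ F.card by omega)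
  let f : Fin 5 ≃ G := (Fintype.equivFinOfCardEq (by simpa using hG5)).symm
  have hne : ∀ i j, i ≠ j → (f i : Finset ι) ≠ f j := fun i j hij h =>
    hij (f.injective (Subtype.ext h))
  refine hK ⟨fun i => ((f i : Finset ι) : Set ι), fun i j hij => ?_, fun i u hu v hv => ?_,
    fun i j hij => ?_⟩
  · exact disjoint_coe.2 (hp _ (hG (f i).2) _ (hG (f j).2) (hne i j hij)).1
  · exact hc _ (hG (f i).2) u hu v hv
  · exact (hp _ (hG (f i).2) _ (hG (f j).2) (hne i j hij)).2

/-- invariant of the separator algorithm -/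
structure Inv [DecidableEq ι] (Adj : ι → ι → Prop) (W : Finset ι) (l b : ℕ)
    (s : Finset ι × Finset ι × Finset (Finset ι)) : Prop where
  sub : s.1 ⊆ W
  cnt : l * s.2.1.card + s.1.card ≤ W.card
  nb : ∀ u ∈ s.1, ∀ v ∈ W, Adj u v → v ∈ s.1 ∨ v ∈ s.2.1 ∨ ∃ A ∈ s.2.2, v ∈ A
  cn : ∀ A ∈ s.2.2, Cn Adj A ∧ A.card ≤ b ∧ Disjoint A s.1
  pw : ∀ A ∈ s.2.2, ∀ B ∈ s.2.2, A ≠ B → Disjoint A B ∧ ∃ a ∈ A, ∃ b ∈ B, Adj a b
  sm : 3 * (W \ (s.1 ∪ s.2.1 ∪ s.2.2.biUnion id)).card ≤ 2 * W.card

theorem sep [DecidableEq ι] (hs : ∀ p q, Adj p q → Adj q p) (hK : NoK5 Adj) (W : Finset ι)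
    {l R : ℕ} (hl : 0 < l) (hR : (W.card : ℝ) < (1 + 1 / (l : ℝ)) ^ R) :
    ∃ A B : Finset ι, A ⊆ W ∧ B ⊆ W ∧ Disjoint A B ∧ (∀ u ∈ A, ∀ v ∈ B, ¬ Adj u v) ∧
      3 * A.card ≤ 2 * W.card ∧ 3 * B.card ≤ 2 * W.card ∧
      l * (W \ (A ∪ B)).card ≤ W.card + l * (4 * (8 * R + 9)) := by
  have h0 : Inv Adj W l (8 * R + 9) (W, ∅, ∅) :=
    ⟨subset_rfl, by simp, fun u _ v hv _ => Or.inl hv, by simp, by simp, by simp⟩
  obtain ⟨⟨H, M, F⟩, hI, hmin⟩ :=
    (measure fun s : Finset ι × Finset ι × Finset (Finset ι) => 2 * s.1.card + s.2.2.card).wf.has_min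
      {s | Inv Adj W l (8 * R + 9) s} ⟨_, h0⟩
  have hmin' : ∀ H' M' F', Inv Adj W l (8 * R + 9) (H', M', F') →
      2 * H.card + F.card ≤ 2 * H'.card + F'.card := fun H' M' F' h =>
    not_lt.1 (hmin (H', M', F') h)
  obtain ⟨hsub, hcnt, hnb, hcn, hpw, hsm⟩ := hI
  simp only at hsub hcnt hnb hcn hpw hsm
  have hF4 : F.card ≤ 4 := card_le_four hK F (fun A hA => (hcn A hA).1) hpw
  have hHW := card_le_card hsub
  have hH : 3 * H.card ≤ 2 * W.card := by
    by_contra hH
    push Not at hH
    have hsd : (W \ H).card = W.card - H.card := card_sdiff_of_subset hsub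
    -- every branch set has a neighbour in `H`
    have hF : ∀ A ∈ F, ∃ a ∈ A, ∃ u ∈ H, Adj a u := by
      intro A hA
      by_contra hno
      push Not at hno
      have : Inv Adj W l (8 * R + 9) (H, M, F.erase A) := by
        refine ⟨hsub, hcnt, fun u hu v hv huv => ?_, fun B hB => hcn B (mem_of_mem_erase hB),
          fun B hB C hC => hpw B (mem_of_mem_erase hB) C (mem_of_mem_erase hC), ?_⟩
        · rcases hnb u hu v hv huv with h | h | ⟨B, hB, h⟩
          · exact Or.inl h
          · exact Or.inr (Or.inl h)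
          · refine Or.inr (Or.inr ⟨B, mem_erase.2 ⟨?_, hB⟩, h⟩)
            rintro rfl
            exact hno v h u hu (hs _ _ huv)
        · have : (W \ (H ∪ M ∪ (F.erase A).biUnion id)).card ≤ (W \ H).card :=
            card_le_card (sdiff_subset_sdiff subset_rfl
              (subset_union_left.trans subset_union_left))
          simp only
          omega
      have h1 := hmin' _ _ _ this
      have h2 := card_erase_of_mem hA
      have h3 := card_pos.2 ⟨A, hA⟩
      omega
    -- small sets expand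
    have hexp : ∀ X : Finset ι, X ⊆ H → X.Nonempty → 2 * X.card ≤ H.card →
        X.card < l * (bd Adj H X).card := by
      intro X hX hne hX2
      by_contra hlt
      push Not at hlt
      have hXc := card_pos.2 hne
      have hd : Disjoint X (bd Adj H X) :=
        disjoint_left.2 fun x hx hx' => (mem_bd.1 hx').2.1 hx
      have hsubH : X ∪ bd Adj H X ⊆ H := union_subset hX fun x hx => (mem_bd.1 hx).1
      have hc1 := card_sdiff_of_subset hsubH
      have hc2 := card_union_of_disjoint hd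
      have hc3 := card_le_card hsubH
      have : Inv Adj W l (8 * R + 9) (H \ (X ∪ bd Adj H X), M ∪ bd Adj H X, F) := by
        refine ⟨sdiff_subset.trans hsub, ?_, fun u hu v hv huv => ?_, fun B hB => ?_, hpw, ?_⟩
        · have := card_union_le M (bd Adj H X)
          have h2 : l * (M ∪ bd Adj H X).card ≤ l * M.card + l * (bd Adj H X).card := by
            rw [← mul_add]
            exact Nat.mul_le_mul_left _ this
          simp only
          omega
        · simp only [mem_sdiff, mem_union, not_or] at hu ⊢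
          rcases hnb u hu.1 v hv huv with h | h | h
          · by_cases hvX : v ∈ X
            · exact absurd (mem_bd.2 ⟨hu.1, hu.2.1, v, hvX, hs _ _ huv⟩) hu.2.2
            · by_cases hvb : v ∈ bd Adj H X
              · exact Or.inr (Or.inl (Or.inr hvb))
              · exact Or.inl ⟨h, hvX, hvb⟩
          · exact Or.inr (Or.inl (Or.inl h))
          · exact Or.inr (Or.inr h)
        · exact ⟨(hcn B hB).1, (hcn B hB).2.1, (hcn B hB).2.2.mono_right sdiff_subset⟩
        · have h1 : W \ (H \ (X ∪ bd Adj H X) ∪ (M ∪ bd Adj H X) ∪ F.biUnion id) ⊆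
              (W \ H) ∪ X := by
            intro x hx
            simp only [mem_sdiff, mem_union, not_or] at hx ⊢
            tauto
          have h2 := (card_le_card h1).trans (card_union_le _ _)
          simp only
          omega
      have h1 := hmin' _ _ _ this
      omega
    obtain ⟨v, hv⟩ : H.Nonempty := card_pos.1 (by omega)
    have hR' : (H.card : ℝ) < (1 + 1 / (l : ℝ)) ^ R :=
      lt_of_le_of_lt (by exact_mod_cast hHW) hR
    obtain ⟨T, h1, h2, h3, h4, h5⟩ := new_branch (b := 2 * R + 2) hv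
      (fun u hu => join_path hs hl hR' hexp hu hv) F hF
    have hc1 := card_sdiff_of_subset h1
    have hc2 := card_pos.2 ⟨v, h3⟩
    have hc3 := card_le_card h1
    have : Inv Adj W l (8 * R + 9) (H \ T, M, insert T F) := by
      refine ⟨sdiff_subset.trans hsub, ?_, fun u hu v hv huv => ?_, fun B hB => ?_,
        fun A hA B hB hAB => ?_, ?_⟩
      · simp only
        omega
      · simp only [mem_sdiff] at hu ⊢
        rcases hnb u hu.1 v hv huv with h | h | ⟨A, hA, h⟩
        · by_cases hvT : v ∈ T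
          · exact Or.inr (Or.inr ⟨T, mem_insert_self _ _, hvT⟩)
          · exact Or.inl ⟨h, hvT⟩
        · exact Or.inr (Or.inl h)
        · exact Or.inr (Or.inr ⟨A, mem_insert_of_mem hA, h⟩)
      · rcases mem_insert.1 hB with rfl | hB
        · refine ⟨h4, h2.trans ?_, disjoint_sdiff⟩
          nlinarith
        · exact ⟨(hcn B hB).1, (hcn B hB).2.1, (hcn B hB).2.2.mono_right sdiff_subset⟩
      · rcases mem_insert.1 hA with rfl | hA' <;> rcases mem_insert.1 hB with rfl | hB'
        · exact absurd rfl hAB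
        · obtain ⟨a, ha, u, hu, hau⟩ := h5 B hB'
          exact ⟨((hcn B hB').2.2.mono_right h1).symm, u, hu, a, ha, hs _ _ hau⟩
        · exact ⟨(hcn A hA').2.2.mono_right h1, h5 A hA'⟩
        · exact hpw A hA' B hB' hAB
      · have h1 : W \ (H \ T ∪ M ∪ (insert T F).biUnion id) ⊆ W \ H := by
          intro x hx
          simp only [mem_sdiff, mem_union, not_or, biUnion_insert, id] at hx ⊢
          tauto
        have h2 := card_le_card h1
        simp only
        omega
    have h6 := hmin' _ _ _ this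
    have h7 := card_insert_le T F
    omega
  refine ⟨H, W \ (H ∪ M ∪ F.biUnion id), hsub, sdiff_subset, ?_, ?_, hH, hsm, ?_⟩
  · exact disjoint_left.2 fun x hx hx' => (mem_sdiff.1 hx').2 (by simp [hx])
  · intro u hu v hv huv
    simp only [mem_sdiff, mem_union, not_or, mem_biUnion, id] at hv
    rcases hnb u hu v hv.1 huv with h | h | h
    · exact hv.2.1.1 h
    · exact hv.2.1.2 h
    · exact hv.2.2 h
  · have h1 : W \ (H ∪ W \ (H ∪ M ∪ F.biUnion id)) ⊆ M ∪ F.biUnion id := by
      intro x hx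
      simp only [mem_sdiff, mem_union, not_or] at hx ⊢
      tauto
    have h2 := (card_le_card h1).trans (card_union_le _ _)
    have h3 : (F.biUnion id).card ≤ F.card * (8 * R + 9) :=
      card_biUnion_le_card_mul _ _ _ fun A hA => (hcn A hA).2.1
    have h4 : F.card * (8 * R + 9) ≤ 4 * (8 * R + 9) := Nat.mul_le_mul_right _ hF4
    calc _ ≤ l * (M.card + 4 * (8 * R + 9)) := Nat.mul_le_mul_left _ (by omega)
      _ ≤ _ := by rw [mul_add]; omega

end

end Crest.Agent.H3.ZD
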