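import Crest.Agent.H3.ZD.Sep

/-! Descent: a bounded piece with small cost (task `T4a`). -/

namespace Crest.Agent.H3.ZD

open Crest.Agent.H9.ZD Finset

/-- separator of size `O(n / n^(1/3))` -/
theorem sep3 {ι : Type} {Adj : ι → ι → Prop} [DecidableEq ι] (hs : ∀ p q, Adj p q → Adj q p)
    (hK : NoK5 Adj) (W : Finset ι) (hW : 0 < W.card) :
    ∃ A B : Finset ι, A ⊆ W ∧ B ⊆ W ∧ Disjoint A B ∧ (∀ u ∈ A, ∀ v ∈ B, ¬ Adj u v) ∧
      3 * A.card ≤ 2 * W.card ∧ 3 * B.card ≤ 2 * W.card ∧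
      Nat.nthRoot 3 W.card * (W \ (A ∪ B)).card ≤ 133 * W.card := by
  set l := Nat.nthRoot 3 W.card with hl
  have h1 : l ^ 3 ≤ W.card := (Nat.le_nthRoot_iff (by norm_num)).1 le_rfl
  have h2 : W.card < (l + 1) ^ 3 := Nat.lt_pow_nthRoot_add_one (by norm_num) _
  have hl0 : 0 < l := (Nat.le_nthRoot_iff (by norm_num)).2 (by simpa using hW)
  have hl' : (0 : ℝ) < l := by exact_mod_cast hl0
  have hR : (W.card : ℝ) < (1 + 1 / (l : ℝ)) ^ (l * (l * 3)) := by
    have a : (2 : ℝ) ≤ (1 + 1 / (l : ℝ)) ^ l := by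
      have := one_add_mul_le_pow (a := 1 / (l : ℝ)) (by
        have : (0 : ℝ) ≤ 1 / l := by positivity
        linarith) l
      rw [mul_one_div_cancel hl'.ne'] at this
      linarith
    have b : l + 1 ≤ 2 ^ l := Nat.lt_two_pow_self
    have c : ((l : ℝ) + 1) ≤ 2 ^ l := by exact_mod_cast b
    calc (W.card : ℝ) < ((l : ℝ) + 1) ^ 3 := by exact_mod_cast h2
      _ ≤ (2 ^ l) ^ 3 := by gcongr
      _ = 2 ^ (l * 3) := by rw [pow_mul]
      _ ≤ ((1 + 1 / (l : ℝ)) ^ l) ^ (l * 3) := by gcongr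
      _ = _ := by rw [← pow_mul]
  obtain ⟨A, B, a1, a2, a3, a4, a5, a6, a7⟩ := sep hs hK W hl0 hR
  refine ⟨A, B, a1, a2, a3, a4, a5, a6, a7.trans ?_⟩
  have : l ≤ l ^ 3 := Nat.le_self_pow (by norm_num) _
  nlinarith

theorem root_shrink {m n : ℕ} (h : 3 * m ≤ 2 * n) (hn : 14 ≤ Nat.nthRoot 3 n) :
    16 * Nat.nthRoot 3 m ≤ 15 * Nat.nthRoot 3 n := by
  set l := Nat.nthRoot 3 n
  set k := Nat.nthRoot 3 m
  have h1 : k ^ 3 ≤ m := (Nat.le_nthRoot_iff (by norm_num)).1 le_rfl
  have h2 : n < (l + 1) ^ 3 := Nat.lt_pow_nthRoot_add_one (by norm_num) _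
  have h3 : (8 * k) ^ 3 < (7 * (l + 1)) ^ 3 := by
    rw [mul_pow, mul_pow]
    omega
  have h4 := lt_of_pow_lt_pow_left₀ 3 (by positivity) h3
  omega

theorem t4a : T4a := by
  classical
  intro ℓ η hℓ hη
  set a : ℝ := η / 8 with ha
  set D : ℝ := 15 * (133 * ((η + 1) * ℓ)) with hD
  have ha0 : 0 < a := by positivity
  have hD0 : 0 < D := by positivity
  obtain ⟨l₀, hl₀⟩ := exists_nat_ge (max 14 (16 * D / (15 * a)))
  have hl14 : 14 ≤ l₀ := by exact_mod_cast (le_max_left _ _).trans hl₀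
  have hl2 : 16 * D / (15 * a) ≤ l₀ := (le_max_right _ _).trans hl₀
  refine ⟨l₀ ^ 3, ?_⟩
  intro ι _ Adj wt c e i₀ hs hK hwt hwt1 hc he headj hecol hW hcW
  let h : ℕ → ℝ := fun n => max 0 (a - D / Nat.nthRoot 3 n)
  have h0 : ∀ n, 0 ≤ h n := fun n => le_max_left _ _
  have ha' : ∀ n, h n ≤ a := fun n => max_le ha0.le (by
    have : 0 ≤ D / (Nat.nthRoot 3 n : ℝ) := by positivity
    linarith)
  let cost : Finset ι → ℝ := fun U => ∑ i ∈ U, (c i + ∑ j ∈ Uᶜ, e i j)
  have cost0 : ∀ U, 0 ≤ cost U := fun U =>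
    sum_nonneg fun i _ => add_nonneg (hc i) (sum_nonneg fun j _ => he i j)
  have key : ∀ n, ∀ W : Finset ι, W.card = n → cost W + W.card * h W.card < η * ∑ i ∈ W, wt i →
      ∃ U : Finset ι, U.card ≤ l₀ ^ 3 ∧ 0 < ∑ i ∈ U, wt i ∧ cost U ≤ η * ∑ i ∈ U, wt i := by
    intro n
    induction n using Nat.strong_induction_on with
    | _ n ih =>
    intro W hWn hP
    by_cases hsmall : W.card ≤ l₀ ^ 3
    · have h1 : 0 ≤ W.card * h W.card := mul_nonneg (by positivity) (h0 _)
      have h2 := cost0 W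
      refine ⟨W, hsmall, ?_, by linarith⟩
      exact (mul_pos_iff_of_pos_left hη).1 (by linarith)
    push Not at hsmall
    have hpos : 0 < W.card := by omega
    obtain ⟨A, B, a1, a2, a3, a4, a5, a6, a7⟩ := sep3 hs hK W hpos
    set l := Nat.nthRoot 3 W.card with hl
    have hll : l₀ ≤ l := (Nat.le_nthRoot_iff (by norm_num)).2 hsmall.le
    have hl' : (l₀ : ℝ) ≤ l := by exact_mod_cast hll
    have hl0 : (0 : ℝ) < l := by
      have : 0 < l := by omega
      exact_mod_cast this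
    set S := W \ (A ∪ B) with hS
    -- the potential drops
    have hδ : 0 ≤ a - D / l - D / (15 * l) := by
      have : 16 * D / (15 * a) ≤ l := hl2.trans hl'
      rw [div_le_iff₀ (by positivity)] at this
      have e1 : D / l + D / (15 * l) = 16 * D / (15 * l) := by field_simp; ring
      have e2 : 16 * D / (15 * l) ≤ a := by
        rw [div_le_iff₀ (by positivity)]
        nlinarith
      linarith
    have hm : ∀ m : ℕ, 3 * m ≤ 2 * W.card → m * h m ≤ m * (a - D / l - D / (15 * l)) := by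
      intro m hm
      rcases Nat.eq_zero_or_pos m with rfl | hm0
      · simp
      refine mul_le_mul_of_nonneg_left (max_le hδ ?_) (by positivity)
      have k0 : 0 < Nat.nthRoot 3 m := (Nat.le_nthRoot_iff (by norm_num)).2 (show 1 ^ 3 ≤ m by omega)
      have k0' : (0 : ℝ) < Nat.nthRoot 3 m := by exact_mod_cast k0
      have k1 : (16 : ℝ) * Nat.nthRoot 3 m ≤ 15 * l := by
        exact_mod_cast root_shrink hm (by omega)
      have e1 : D / l + D / (15 * l) = 16 * D / (15 * l) := by field_simp; ring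
      have e2 : 16 * D / (15 * l) ≤ D / Nat.nthRoot 3 m := by
        rw [div_le_div_iff₀ (by positivity) k0']
        nlinarith
      linarith
    have hn : a - D / l ≤ h W.card := le_max_right _ _
    have hAB : (A.card : ℝ) + B.card ≤ W.card := by
      have := card_le_card (union_subset a1 a2)
      rw [card_union_of_disjoint a3] at this
      exact_mod_cast this
    have hSc : (η + 1) * ℓ * S.card ≤ W.card * (D / (15 * l)) := by
      have : (l : ℝ) * S.card ≤ 133 * W.card := by exact_mod_cast a7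
      rw [← mul_div_assoc, le_div_iff₀ (by positivity), hD]
      have p : 0 < (η + 1) * ℓ := by positivity
      nlinarith
    have hWe : W = A ∪ B ∪ S := by
      rw [hS, union_sdiff_of_subset (union_subset a1 a2)]
    have hwS : ∑ i ∈ W, wt i ≤ ∑ i ∈ A, wt i + ∑ i ∈ B, wt i + ℓ * S.card := by
      rw [← sum_sdiff (union_subset a1 a2), sum_union a3]
      have : ∑ i ∈ S, wt i ≤ ∑ i ∈ S, ℓ := sum_le_sum fun i _ => (hwt i).2
      rw [sum_const, nsmul_eq_mul] at this
      linarith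
    have hc1 : ∀ X Y : Finset ι, W = X ∪ Y ∪ S → Disjoint X Y → (∀ u ∈ X, ∀ v ∈ Y, ¬ Adj u v) →
        cost X ≤ ∑ i ∈ X, (c i + ∑ j ∈ Wᶜ, e i j) + ∑ i ∈ X, ∑ j ∈ S, e i j := by
      intro X Y hXY hd hadj
      rw [← sum_add_distrib]
      refine sum_le_sum fun i hi => ?_
      have hY : ∑ j ∈ Y, e i j = 0 := sum_eq_zero fun j hj =>
        headj i j (fun h => disjoint_left.1 hd hi (h ▸ hj)) (hadj i hi j hj)
      have hsub : Xᶜ ⊆ Wᶜ ∪ S ∪ Y := by
        intro x hx
        simp only [mem_union, mem_compl] at hx ⊢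
        by_cases hxW : x ∈ W
        · rw [hXY] at hxW
          simp only [mem_union] at hxW
          tauto
        · tauto
      have u1 : ∑ j ∈ Xᶜ, e i j ≤ ∑ j ∈ Wᶜ ∪ S ∪ Y, e i j :=
        sum_le_sum_of_subset_of_nonneg hsub fun j _ _ => he i j
      have u2 : ∀ P Q : Finset ι, ∑ j ∈ P ∪ Q, e i j ≤ ∑ j ∈ P, e i j + ∑ j ∈ Q, e i j := by
        intro P Q
        rw [← sum_union_inter]
        have : 0 ≤ ∑ j ∈ P ∩ Q, e i j := sum_nonneg fun j _ => he i j
        linarith
      have u3 := u2 (Wᶜ ∪ S) Y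
      have u4 := u2 Wᶜ S
      linarith
    have hcA := hc1 A B hWe a3 a4
    have hcB := hc1 B A (by rw [union_comm B A]; exact hWe) a3.symm
      fun u hu v hv h => a4 v hv u hu (hs _ _ h)
    have hc2 : ∑ i ∈ A, (c i + ∑ j ∈ Wᶜ, e i j) + ∑ i ∈ B, (c i + ∑ j ∈ Wᶜ, e i j) ≤ cost W := by
      rw [← sum_union a3]
      exact sum_le_sum_of_subset_of_nonneg (union_subset a1 a2) fun i _ _ =>
        add_nonneg (hc i) (sum_nonneg fun j _ => he i j)
    have hc3 : ∑ i ∈ A, ∑ j ∈ S, e i j + ∑ i ∈ B, ∑ j ∈ S, e i j ≤ ℓ * S.card := by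
      rw [← sum_union a3, sum_comm]
      have : ∑ j ∈ S, ∑ i ∈ A ∪ B, e i j ≤ ∑ j ∈ S, ℓ := sum_le_sum fun j _ =>
        (sum_le_sum_of_subset_of_nonneg (subset_univ _) fun i _ _ => he i j).trans (hecol j)
      rw [sum_const, nsmul_eq_mul] at this
      linarith
    have mA := hm A.card a5
    have mB := hm B.card a6
    have hsum : (cost A + A.card * h A.card) + (cost B + B.card * h B.card) <
        η * ∑ i ∈ A, wt i + η * ∑ i ∈ B, wt i := by
      have t1 : (A.card + B.card : ℝ) * (a - D / l - D / (15 * l)) ≤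
          W.card * (a - D / l - D / (15 * l)) := mul_le_mul_of_nonneg_right hAB hδ
      have t2 : (W.card : ℝ) * (a - D / l) ≤ W.card * h W.card :=
        mul_le_mul_of_nonneg_left hn (Nat.cast_nonneg _)
      have t3 := mul_le_mul_of_nonneg_left hwS hη.le
      nlinarith
    by_cases hA : cost A + A.card * h A.card < η * ∑ i ∈ A, wt i
    · exact ih A.card (by omega) A rfl hA
    · have hB : cost B + B.card * h B.card < η * ∑ i ∈ B, wt i := by
        have := not_lt.1 hA
        exact lt_of_add_lt_add_left (lt_of_le_of_lt (add_le_add_left this _) hsum)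
      exact ih B.card (by omega) B rfl hB
  have hcu : cost univ = ∑ i, c i := by
    refine sum_congr rfl fun i _ => ?_
    rw [compl_univ, sum_empty, add_zero]
  by_cases hn : Fintype.card ι ≤ 1
  · refine ⟨univ, ?_, hW, ?_⟩
    · have : 1 ≤ l₀ ^ 3 := Nat.one_le_pow _ _ (by omega)
      simpa using hn.trans this
    · change cost univ ≤ _
      nlinarith
  · refine key _ univ rfl ?_
    have h1 : ((univ.erase i₀).card : ℝ) ≤ ∑ i, wt i := by
      calc ((univ.erase i₀).card : ℝ) = ∑ i ∈ univ.erase i₀, (1 : ℝ) := by simp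
        _ ≤ ∑ i ∈ univ.erase i₀, wt i := sum_le_sum fun i hi => hwt1 i (ne_of_mem_erase hi)
        _ ≤ _ := sum_le_sum_of_subset_of_nonneg (subset_univ _) fun i _ _ => (hwt i).1
    have h2 : (univ : Finset ι).card ≤ 2 * (univ.erase i₀).card := by
      rw [card_erase_of_mem (mem_univ _), card_univ]
      omega
    have h3 : ((univ : Finset ι).card : ℝ) ≤ 2 * ∑ i, wt i := by
      have : ((univ : Finset ι).card : ℝ) ≤ 2 * (univ.erase i₀).card := by exact_mod_cast h2
      linarith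
    have h4 : ((univ : Finset ι).card : ℝ) * h (univ : Finset ι).card ≤ (2 * ∑ i, wt i) * a :=
      mul_le_mul h3 (ha' _) (h0 _) (by positivity)
    rw [hcu]
    nlinarith

end Crest.Agent.H3.ZD
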