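import Crest.Agent.H3.ZD.Seg
import Crest.Agent.H3.ZD.T4a

/-! A reduced diagram contains a bounded piece (task `T4`). -/

namespace Crest.Agent.H3.ZD

open Crest.Agent.H9.ZD Crest.Agent.H6.SC Finset Equiv Equiv.Perm

theorem exists_enum {ι : Type} (U : Finset ι) (i₀ : ι) {K : ℕ} (h : U.card ≤ K) :
    ∃ (b : Fin K → ι) (on : Fin K → Prop), (∀ k, on k → b k ∈ U) ∧
      (∀ x ∈ U, ∃ k, on k ∧ b k = x) ∧ ∀ k k', on k → on k' → b k = b k' → k = k' := by
  classical
  refine ⟨fun k => if hk : k.val < U.card then (U.equivFin.symm ⟨k, hk⟩).1 else i₀,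
    fun k => k.val < U.card, fun k hk => ?_, fun x hx => ?_, fun k k' hk hk' e => ?_⟩
  · simp only [hk, dif_pos]
    exact (U.equivFin.symm _).2
  · refine ⟨⟨U.equivFin ⟨x, hx⟩, (U.equivFin ⟨x, hx⟩).2.trans_le h⟩, (U.equivFin ⟨x, hx⟩).2, ?_⟩
    simp
  · simp only [hk, hk', dif_pos] at e
    have := U.equivFin.symm.injective (Subtype.ext e)
    exact Fin.ext (by simpa using this)

section
variable {I V : Type} {E : Finset (V × I × V)} {r : V} (R : RD E r)

theorem α_ne_st {d : R.D} (h : d ≠ R.st) : R.α d ≠ R.st := fun e => h (by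
  rw [← R.α_α d, e, R.α_st])

theorem walk_iter (n : ℕ) : ∀ x : R.D, (∀ i < n, (R.φ ^ i) x ≠ R.st) →
    Walk (St E) (R.tl x) ((List.iterate R.φ x n).map R.lab) (R.tl ((R.φ ^ n) x)) := by
  induction n with
  | zero => intro x _; simp
  | succ n ih =>
    intro x hx
    rw [List.iterate, List.map_cons, walk_cons]
    refine ⟨_, R.step x (hx 0 (by omega)), ?_⟩
    rw [pow_succ, Perm.mul_apply]
    exact ih _ fun i hi => by
      have := hx (i + 1) (by omega)
      rwa [pow_succ, Perm.mul_apply] at this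

theorem red_iter (n : ℕ) : ∀ x : R.D, (∀ i < n, (R.φ ^ i) x ≠ R.st) →
    FreeGroup.IsReduced ((List.iterate R.φ x n).map R.lab) := by
  induction n with
  | zero => intro x _; simp
  | succ n ih =>
    intro x hx
    have h1 := ih (R.φ x) fun i hi => by
      have := hx (i + 1) (by omega)
      rwa [pow_succ, Perm.mul_apply] at this
    cases n with
    | zero => simp [List.iterate]
    | succ n =>
      rw [List.iterate, List.map_cons]
      rw [List.iterate, List.map_cons] at h1 ⊢
      refine List.isChain_cons_cons.2 ⟨fun e => ?_, h1⟩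
      have := R.nb x (hx 0 (by omega)) (hx 1 (by omega))
      by_contra e2
      refine this (Prod.ext e.symm ?_)
      simp only [Crest.Agent.H9.ZD.inv]
      cases h3 : (R.lab x).2 <;> cases h4 : (R.lab (R.φ x)).2 <;> simp_all

variable {R} {m : ℕ} (s : Seg R.φ R.st m)

theorem seg_ne_st {x : R.D} (hx : x ≠ R.st) {i : ℕ} (hi : i < s.n x) : (R.φ ^ i) x ≠ R.st := by
  rcases Nat.eq_zero_or_pos i with rfl | h0
  · exact hx
  · exact fun e => s.n_min x i h0 hi (by rw [e]; exact s.st_mem)

theorem seg_long {g : ℕ} (hG : Gir E g) (hm : g ≤ m) {x : R.D} (hx : x ∈ s.C) (hx' : x ≠ R.st) :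
    g ≤ s.n x := by
  by_contra h
  have h1 := s.sep x hx hx' (by omega)
  have h2 := walk_iter R (s.n x) x fun i hi => seg_ne_st s hx' hi
  rw [h1] at h2
  have h3 := hG _ _ (red_iter R (s.n x) x fun i hi => seg_ne_st s hx' hi) (by
    have := s.n_pos x
    intro e
    have := congrArg List.length e
    simp at this
    omega) h2
  simp at h3
  omega

open Classical in
theorem card_base [Fintype R.D] (x : R.D) : (univ.filter fun d => s.base d = x).card ≤ 2 * m := by
  refine le_trans ?_ (s.n_le x)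
  rw [← card_range (s.n x)]
  refine card_le_card_of_injOn s.idx (fun d hd => ?_) fun d hd d' hd' e => ?_
  · have := s.idx_lt d
    simp only [coe_filter, mem_univ, true_and, Set.mem_setOf_eq] at hd
    simpa [hd] using this
  · simp only [coe_filter, mem_univ, true_and, Set.mem_setOf_eq] at hd hd'
    rw [← s.base_idx d, ← s.base_idx d', e, hd, hd']

theorem base_succ {d : R.D} (h : R.φ d ∉ s.C) :
    s.base (R.φ d) = s.base d ∧ s.idx (R.φ d) = s.idx d + 1 := by
  have h1 : R.φ d = (R.φ ^ (s.idx d + 1)) (s.base d) := by rw [pow_succ_app, s.base_idx]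
  have h2 : s.idx d + 1 < s.n (s.base d) := by
    refine lt_of_le_of_ne (s.idx_lt d) fun e => h ?_
    rw [h1, e]
    exact s.n_mem _
  rw [h1]
  exact s.uniq _ (s.base_mem d) _ h2

theorem base_last {d : R.D} (h : R.φ d ∈ s.C) :
    d = (R.φ ^ (s.n (s.base d) - 1)) (s.base d) := by
  have h1 : R.φ d = (R.φ ^ (s.idx d + 1)) (s.base d) := by rw [pow_succ_app, s.base_idx]
  have h2 : s.idx d + 1 = s.n (s.base d) := by
    refine le_antisymm (s.idx_lt d) (not_lt.1 fun e => s.n_min _ _ (by omega) e (h1 ▸ h))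
  rw [← h2, Nat.add_sub_cancel, s.base_idx]

theorem base_self {d : R.D} (h : d ∈ s.C) : s.base d = d := (s.uniq d h 0 (s.n_pos d)).1

open Classical in
theorem piece_of [Fintype R.D] {g L K B : ℕ} {η : ℝ} (s : Seg R.φ R.st (L * g)) (hG : Gir E g)
    (hL : 1 ≤ L) (hη : 0 < η) (U : Finset R.D) (hUC : ∀ x ∈ U, x ∈ s.C) (hK : U.card ≤ K)
    (hne : ∃ x ∈ U, x ≠ R.st)
    (hb : ((univ.filter fun d => d ≠ R.st ∧ s.base d ∈ U ∧ s.base (R.α d) ∉ U).card : ℝ) ≤
      η * ∑ x ∈ U.erase R.st, (s.n x : ℝ))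
    (hB : (univ.filter fun d => s.base d ∈ U ∧ R.φ (R.α (R.φ (R.α d))) ≠ d).card + 2 * K ≤ B) :
    Nonempty (Piece E r g L K B η) := by
  obtain ⟨b, on, hb1, hb2, hb3⟩ := exists_enum U R.st hK
  let o : Fin K → ℕ := fun k => if b k = R.st then 1 else 0
  let len : Fin K → ℕ := fun k => if on k then s.n (b k) - o k else 0
  let P : Fin K × ℕ → R.D := fun t => (R.φ ^ (t.2 + o t.1)) (b t.1)
  have Pnx : ∀ t, P (nx t) = R.φ (P t) := fun t => by
    simp only [P, nx]
    rw [← pow_succ_app]
    congr 2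
    omega
  have hon : ∀ t : Fin K × ℕ, t.2 < len t.1 → on t.1 ∧ t.2 + o t.1 < s.n (b t.1) := by
    intro t ht
    simp only [len] at ht
    split_ifs at ht with h
    · exact ⟨h, by omega⟩
    · omega
  have Pb : ∀ t : Fin K × ℕ, t.2 < len t.1 → s.base (P t) = b t.1 ∧ s.idx (P t) = t.2 + o t.1 :=
    fun t ht => s.uniq _ (hUC _ (hb1 _ (hon t ht).1)) _ (hon t ht).2
  have Pinj : ∀ t t' : Fin K × ℕ, t.2 < len t.1 → t'.2 < len t'.1 → P t = P t' → t = t' := by
    intro t t' ht ht' e
    have h1 : t.1 = t'.1 := hb3 _ _ (hon t ht).1 (hon t' ht').1 (by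
      rw [← (Pb t ht).1, ← (Pb t' ht').1, e])
    have h2 := (Pb t ht).2
    rw [e, (Pb t' ht').2, h1] at h2
    exact Prod.ext h1 (by omega)
  have Pst : ∀ t : Fin K × ℕ, t.2 < len t.1 → P t ≠ R.st := by
    intro t ht
    by_cases h : b t.1 = R.st
    · have h1 : o t.1 = 1 := if_pos h
      exact fun e => s.n_min _ _ (by omega) (hon t ht).2 (by
        change P t ∈ _
        rw [e]; exact s.st_mem)
    · exact seg_ne_st s h (hon t ht).2
  have PU : ∀ t : Fin K × ℕ, t.2 < len t.1 → s.base (P t) ∈ U := fun t ht =>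
    (Pb t ht).1 ▸ hb1 _ (hon t ht).1
  have Psurj : ∀ d, d ≠ R.st → s.base d ∈ U → ∃ t : Fin K × ℕ, t.2 < len t.1 ∧ P t = d := by
    intro d hd hU
    obtain ⟨k, hk, hk'⟩ := hb2 _ hU
    have h1 : o k ≤ s.idx d := by
      simp only [o]
      split_ifs with h
      · by_contra h0
        have := s.base_idx d
        rw [show s.idx d = 0 by omega, ← hk', h] at this
        exact hd this.symm
      · omega
    have h2 := s.idx_lt d
    refine ⟨(k, s.idx d - o k), ?_, ?_⟩
    · simp only [len, hk, if_true, hk']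
      omega
    · simp only [P]
      rw [show s.idx d - o k + o k = s.idx d by omega, hk', s.base_idx]
  let a : Fin K × ℕ → Fin K × ℕ := fun t =>
    if h : ∃ t' : Fin K × ℕ, t'.2 < len t'.1 ∧ P t' = R.α (P t) then h.choose else t
  have ha1 : ∀ t : Fin K × ℕ, t.2 < len t.1 → s.base (R.α (P t)) ∈ U →
      (a t).2 < len (a t).1 ∧ P (a t) = R.α (P t) ∧ a t ≠ t := by
    intro t ht hU
    have h := Psurj _ (α_ne_st R (Pst t ht)) hU
    have e : a t = h.choose := dif_pos h
    have h2 := h.choose_spec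
    rw [← e] at h2
    exact ⟨h2.1, h2.2, fun e' => R.α_ne _ (Pst t ht) (by rw [← h2.2, e'])⟩
  have ha2 : ∀ t : Fin K × ℕ, s.base (R.α (P t)) ∉ U → a t = t := by
    intro t hU
    refine dif_neg ?_
    rintro ⟨t', h1, h2⟩
    exact hU (h2 ▸ PU t' h1)
  have hsum : ∑ x ∈ U.erase R.st, s.n x ≤ ∑ k, len k := by
    have : U.erase R.st ⊆ (univ.filter fun k => on k ∧ b k ≠ R.st).image b := by
      intro x hx
      obtain ⟨k, hk, rfl⟩ := hb2 x (mem_of_mem_erase hx)
      exact mem_image_of_mem _ (by simpa using ⟨hk, ne_of_mem_erase hx⟩)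
    refine (sum_le_sum_of_subset this).trans ?_
    rw [sum_image fun k hk k' hk' e => hb3 k k' (mem_filter.1 hk).2.1 (mem_filter.1 hk').2.1 e]
    refine le_trans (le_of_eq (sum_congr rfl fun k hk => ?_))
      (sum_le_sum_of_subset (f := len) (filter_subset _ _))
    obtain ⟨-, h1, h2⟩ := mem_filter.1 hk
    simp only [len, o, h1, h2, if_true, if_false, Nat.sub_zero]
  refine ⟨⟨len, fun t => R.tl (P t), fun t => R.lab (P t),
    fun k => b k ≠ R.st ∧ (R.φ ^ s.n (b k)) (b k) = b k, fun k => b k = R.st ∧ 0 < len k, a,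
    fun k => ?_, fun t ht => ?_, fun t ht => ?_, fun k hk h0 => ?_, fun k hk => ⟨?_, hk.2⟩,
    fun k k' hk hk' => ?_, fun k h1 h2 => ?_, ?_, fun t ht => ?_, fun t ht => ?_,
    fun t ht h => ?_, ?_, ?_⟩⟩
  · have := s.n_le (b k)
    simp only [len]
    split_ifs
    · rw [mul_assoc]
      omega
    · omega
  · rw [Pnx]
    exact R.step _ (Pst t ht)
  · have h1 := Pst (nx t) ht
    rw [Pnx] at h1 ⊢
    exact R.nb _ (Pst t (by omega)) h1
  · have h1 : o k = 0 := if_neg hk.1
    have h2 : len k = s.n (b k) := by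
      have := (hon (k, 0) h0).1
      simp only [len, this, if_true, h1, Nat.sub_zero]
    have h3 : P (k, len k) = P (k, 0) := by
      simp only [P, h1, h2, Nat.add_zero, hk.2, pow_zero, Perm.one_apply]
    refine ⟨by simp only [h3], ?_⟩
    have h4 := Pnx (k, len k - 1)
    simp only [nx, show len k - 1 + 1 = len k by omega, h3] at h4
    have h5 := Pst (k, 0) h0
    rw [h4] at h5 ⊢
    exact R.nb _ (Pst (k, len k - 1) (by simp only; omega)) h5
  · have h1 : o k = 1 := if_pos hk.1
    have h2 : P (k, 0) = R.φ R.st := by simp only [P, h1, hk.1, zero_add, pow_one]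
    have h3 := Pst (k, 0) hk.2
    rw [h2] at h3 ⊢
    exact R.root h3
  · exact hb3 _ _ (hon (k, 0) hk.2).1 (hon (k', 0) hk'.2).1 (hk.1.trans hk'.1.symm)
  · by_contra hc
    push Not at hc
    have h0 : 0 < len k := by omega
    have h3 : b k ≠ R.st := fun e => h2 ⟨e, h0⟩
    have h4 : o k = 0 := if_neg h3
    have h5 := (hon (k, 0) h0).1
    have h6 : len k = s.n (b k) := by simp only [len, h5, if_true, h4, Nat.sub_zero]
    exact h1 ⟨h3, s.sep _ (hUC _ (hb1 _ h5)) h3 (by omega)⟩
  · obtain ⟨x, hx, hx'⟩ := hne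
    refine le_trans ?_ hsum
    refine (seg_long s hG (Nat.le_mul_of_pos_left _ hL) (hUC x hx) hx').trans ?_
    exact single_le_sum (f := s.n) (fun _ _ => Nat.zero_le _) (mem_erase.2 ⟨hx', hx⟩)
  · by_cases hU : s.base (R.α (P t)) ∈ U
    · exact (ha1 t ht hU).1
    · rwa [ha2 t hU]
  · by_cases hU : s.base (R.α (P t)) ∈ U
    · obtain ⟨h1, h2, -⟩ := ha1 t ht hU
      have h3 : R.α (P (a t)) = P t := by rw [h2, R.α_α]
      obtain ⟨h4, h5, -⟩ := ha1 (a t) h1 (h3 ▸ PU t ht)
      exact Pinj _ _ h4 ht (h5.trans h3)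
    · rw [ha2 t hU, ha2 t hU]
  · have hU : s.base (R.α (P t)) ∈ U := by
      by_contra hU
      exact h (ha2 t hU)
    obtain ⟨-, h2, -⟩ := ha1 t ht hU
    simp only [h2, Pnx]
    exact ⟨R.glue _ (Pst t ht), R.nonorig _ (Pst t ht)⟩
  · have h1 : ((sides len).filter fun t => a t = t).card ≤
        (univ.filter fun d => d ≠ R.st ∧ s.base d ∈ U ∧ s.base (R.α d) ∉ U).card := by
      refine card_le_card_of_injOn P (fun t ht => ?_) fun t ht t' ht' e => ?_
      · simp only [coe_filter, mem_sides, Set.mem_setOf_eq, mem_univ, true_and] at ht ⊢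
        exact ⟨Pst t ht.1, PU t ht.1, fun hU => (ha1 t ht.1 hU).2.2 ht.2⟩
      · simp only [coe_filter, mem_sides, Set.mem_setOf_eq] at ht ht'
        exact Pinj _ _ ht.1 ht'.1 e
    have h2 : (∑ x ∈ U.erase R.st, (s.n x : ℝ)) ≤ ∑ k, (len k : ℝ) := by exact_mod_cast hsum
    calc _ ≤ ((univ.filter fun d => d ≠ R.st ∧ s.base d ∈ U ∧ s.base (R.α d) ∉ U).card : ℝ) := by
          exact_mod_cast h1
      _ ≤ _ := hb.trans (mul_le_mul_of_nonneg_left h2 hη.le)
  · let G : Finset R.D :=
      (univ.filter fun d => s.base d ∈ U ∧ R.φ (R.α (R.φ (R.α d))) ≠ d) ∪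
        U.image (fun x => R.φ (R.α x)) ∪ U.image fun x => R.α ((R.φ ^ (s.n x - 1)) x)
    have hG : G.card ≤ B := by
      have a1 := card_image_le (s := U) (f := fun x => R.φ (R.α x))
      have a2 := card_image_le (s := U) (f := fun x => R.α ((R.φ ^ (s.n x - 1)) x))
      refine (card_union_le _ _).trans ((Nat.add_le_add_right (card_union_le _ _) _).trans ?_)
      omega
    refine le_trans (card_le_card_of_injOn (fun t => P (nx t)) (fun t ht => ?_)
      fun t ht t' ht' e => ?_) hG
    · simp only [coe_filter, mem_sides, Set.mem_setOf_eq] at ht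
      obtain ⟨ht, ht', hR⟩ := ht
      have ht2 : (nx t).2 < len (nx t).1 := ht'
      by_contra hn
      simp only [G, coe_union, coe_filter, coe_image, Set.mem_union, Set.mem_setOf_eq, mem_univ,
        true_and, Set.mem_image, mem_coe, not_or, not_and, not_not, not_exists] at hn
      obtain ⟨⟨n1, n2⟩, n3⟩ := hn
      have e1 : R.φ (R.α (P (nx t))) = R.α (P t) := by
        have := n1 (PU _ ht2)
        conv_rhs at this => rw [Pnx]
        rw [← R.φ.injective this, R.α_α]
      apply hR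
      by_cases hC : R.α (P t) ∈ s.C
      · left
        refine ⟨ha2 _ fun hU => ?_, ha2 _ fun hU => ?_⟩
        · rw [base_self s hC] at hU
          exact n2 _ hU (by rw [R.α_α, Pnx])
        · refine n3 _ hU ?_
          rw [← base_last s (e1 ▸ hC), R.α_α]
      · have e2 := base_succ s (e1 ▸ hC)
        rw [e1] at e2
        by_cases hU : s.base (R.α (P t)) ∈ U
        · right
          obtain ⟨k1, k2, k3⟩ := ha1 t ht hU
          obtain ⟨l1, l2, l3⟩ := ha1 (nx t) ht2 (e2.1 ▸ hU)
          refine ⟨k3, l3, ?_⟩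
          have m1 := Pb _ k1
          have m2 := Pb _ l1
          rw [k2] at m1
          rw [l2] at m2
          have m3 : (a t).1 = (a (nx t)).1 :=
            hb3 _ _ (hon _ k1).1 (hon _ l1).1 (by rw [← m1.1, ← m2.1, e2.1])
          refine Prod.ext m3 ?_
          have := m1.2
          rw [e2.2, m2.2, m3] at this
          change (a t).2 = (a (nx t)).2 + 1
          omega
        · left
          exact ⟨ha2 _ hU, ha2 _ (e2.1 ▸ hU)⟩
    · simp only [coe_filter, mem_sides, Set.mem_setOf_eq] at ht ht'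
      simp only [Pnx] at e
      exact Pinj _ _ ht.1 ht'.1 (R.φ.injective e)

end

theorem t4 (hk : T4k) : T4 := by
  classical
  intro L η hL hη
  obtain ⟨K, hK⟩ := t4a (2 * L) η (by positivity) hη
  refine ⟨K, 48 * L * K + 2 * K, fun g I V E r hg _ hG R => ?_⟩
  have := R.fin
  have := Fintype.ofFinite R.D
  obtain ⟨s⟩ := exists_seg R.φ R.st (m := L * g) (by positivity)
  have hg0 : (0 : ℝ) < g := by positivity
  have hE := euler R.planar R.α_α R.α_st R.α_ne (fun d hd e =>
    R.nb (R.α d) (α_ne_st R hd) (by rwa [e]) (by rw [e, R.glue d hd, H9.ZD.inv_inv])) R.ne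
  have hF := s.cyc_le
  rw [Nat.card_eq_fintype_card] at hF
  let i₀ : s.C := ⟨R.st, s.st_mem⟩
  let bs : R.D → s.C := fun d => ⟨s.base d, s.base_mem d⟩
  let wt : s.C → ℝ := fun x => if x = i₀ then 0 else s.n x / g
  let Bd : Finset R.D := univ.filter fun d => R.φ (R.α (R.φ (R.α d))) ≠ d
  let c : s.C → ℝ := fun x => η / 24 * (Bd.filter fun d => bs d = x).card
  let e : s.C → s.C → ℝ := fun x y =>
    (univ.filter fun d => bs d = x ∧ bs (R.α d) = y).card / g
  have hn : ∀ x : R.D, (s.n x : ℝ) / g ≤ 2 * L := fun x => by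
    rw [div_le_iff₀ hg0]
    have := s.n_le x
    rw [← mul_assoc] at this
    exact_mod_cast this
  have w0 : ∀ i, 0 ≤ wt i ∧ wt i ≤ 2 * L := fun i => by
    simp only [wt]
    split_ifs
    · exact ⟨le_rfl, by positivity⟩
    · exact ⟨by positivity, hn _⟩
  have w1 : ∀ i, i ≠ i₀ → 1 ≤ wt i := fun i hi => by
    simp only [wt, hi, if_false]
    rw [le_div_iff₀ hg0, one_mul]
    exact_mod_cast seg_long s hG (Nat.le_mul_of_pos_left _ hL) i.2 fun h => hi (Subtype.ext h)
  have hW : (Fintype.card s.C : ℝ) - 1 ≤ ∑ i, wt i := by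
    calc (Fintype.card s.C : ℝ) - 1 = ∑ i ∈ univ.erase i₀, (1 : ℝ) := by
          rw [sum_const, card_erase_of_mem (mem_univ _), card_univ, nsmul_eq_mul, mul_one,
            Nat.cast_sub (by omega), Nat.cast_one]
      _ ≤ ∑ i ∈ univ.erase i₀, wt i := sum_le_sum fun i hi => w1 i (ne_of_mem_erase hi)
      _ ≤ _ := sum_le_sum_of_subset_of_nonneg (subset_univ _) fun i _ _ => (w0 i).1
  have hC2 : (2 : ℝ) ≤ Fintype.card s.C := by exact_mod_cast hE.2.trans hF
  have hcs : ∀ U : Finset s.C, ∑ i ∈ U, c i = η / 24 * (Bd.filter fun d => bs d ∈ U).card := by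
    intro U
    rw [← mul_sum, card_eq_sum_card_fiberwise (f := bs) (t := U) (by
      intro d hd
      exact (mem_filter.1 hd).2)]
    push_cast
    congr 1
    refine sum_congr rfl fun x hx => ?_
    congr 2
    ext d
    simp only [mem_filter]
    exact ⟨fun h => ⟨⟨h.1, h.2 ▸ hx⟩, h.2⟩, fun h => ⟨h.1.1, h.2⟩⟩
  obtain ⟨U, hU, hUw, hUc⟩ := hK s.C (fun x y => ∃ d, s.base d = x ∧ s.base (R.α d) = y) wt c e i₀
    (by
      rintro p q ⟨d, h1, h2⟩
      exact ⟨R.α d, h2, by rw [R.α_α, h1]⟩)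
    (s.noK5 hk R.α_α R.planar) w0 w1 (fun i => by positivity) (fun i j => by positivity)
    (fun i j _ h => by
      have : (univ.filter fun d => bs d = i ∧ bs (R.α d) = j) = ∅ :=
        filter_eq_empty_iff.2 fun d _ hd => h ⟨d, congrArg Subtype.val hd.1,
          congrArg Subtype.val hd.2⟩
      simp only [e, this, card_empty, Nat.cast_zero, zero_div])
    (fun j => by
      simp only [e]
      rw [← sum_div, div_le_iff₀ hg0]
      have h1 : ∑ i, (univ.filter fun d => bs d = i ∧ bs (R.α d) = j).card =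
          (univ.filter fun d => bs (R.α d) = j).card := by
        rw [card_eq_sum_card_fiberwise (f := bs) (t := univ) (by simp)]
        refine sum_congr rfl fun x _ => ?_
        rw [filter_filter]
        simp only [and_comm]
      have h2 : (univ.filter fun d => bs (R.α d) = j).card ≤
          (univ.filter fun d => s.base d = j).card := by
        refine card_le_card_of_injOn R.α (fun d hd => ?_) R.α.injective.injOn
        simp only [coe_filter, mem_univ, true_and, Set.mem_setOf_eq] at hd ⊢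
        exact congrArg Subtype.val hd
      have h3 := h1.le.trans (h2.trans (card_base s j))
      rw [← mul_assoc] at h3
      exact_mod_cast h3)
    (by linarith)
    (by
      rw [hcs]
      have h1 : ((Bd.filter fun d => bs d ∈ (univ : Finset s.C)).card : ℝ) ≤ Bd.card := by
        exact_mod_cast card_filter_le _ _
      have h2 : (Bd.card : ℝ) + 6 ≤ 6 * Fintype.card s.C := by
        have : Bd.card + 6 ≤ 6 * Fintype.card s.C := hE.1.trans (by omega)
        exact_mod_cast this
      nlinarith)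
  have hmem : ∀ d, s.base d ∈ U.image Subtype.val ↔ bs d ∈ U := fun d => by
    rw [mem_image]
    exact ⟨fun ⟨x, hx, e⟩ => (Subtype.ext e : x = bs d) ▸ hx, fun h => ⟨_, h, rfl⟩⟩
  replace hUc : ∑ i ∈ U, (c i + ∑ j ∈ Uᶜ, e i j) ≤ η * ∑ i ∈ U, wt i := by
    convert hUc
  rw [sum_add_distrib, hcs] at hUc
  have e0 : 0 ≤ ∑ i ∈ U, ∑ j ∈ Uᶜ, e i j := sum_nonneg fun i _ => sum_nonneg fun j _ => by positivity
  refine piece_of s hG hL hη (U.image Subtype.val) (by
    intro x hx
    obtain ⟨y, -, rfl⟩ := mem_image.1 hx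
    exact y.2) (card_image_le.trans hU) ?_ ?_ ?_
  · obtain ⟨x, hx, h⟩ := exists_ne_zero_of_sum_ne_zero hUw.ne'
    refine ⟨x, mem_image_of_mem _ hx, fun h' => h ?_⟩
    simp only [wt, show x = i₀ from Subtype.ext h', if_true]
  · have h1 : (univ.filter fun d => d ≠ R.st ∧ s.base d ∈ U.image Subtype.val ∧
        s.base (R.α d) ∉ U.image Subtype.val).card ≤
        ∑ i ∈ U, ∑ j ∈ Uᶜ, (univ.filter fun d => bs d = i ∧ bs (R.α d) = j).card := by
      rw [← sum_product']
      refine le_trans (card_le_card ?_) (card_biUnion_le (s := U ×ˢ Uᶜ)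
        (t := fun p => univ.filter fun d => bs d = p.1 ∧ bs (R.α d) = p.2))
      intro d hd
      simp only [mem_filter, mem_univ, true_and, hmem] at hd
      exact mem_biUnion.2 ⟨(bs d, bs (R.α d)), by simpa using hd.2, by simp⟩
    have h2 : ∑ i ∈ U, ∑ j ∈ Uᶜ, e i j = (∑ i ∈ U, ∑ j ∈ Uᶜ,
        (univ.filter fun d => bs d = i ∧ bs (R.α d) = j).card : ℕ) / g := by
      simp only [e, ← sum_div]
      push_cast
      rfl
    have h3 : ∑ i ∈ U, wt i = (∑ x ∈ (U.image Subtype.val).erase R.st, (s.n x : ℝ)) / g := by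
      have : (U.image Subtype.val).erase R.st = (U.erase i₀).image Subtype.val :=
        (image_erase Subtype.val_injective U i₀).symm
      rw [this, sum_image Subtype.val_injective.injOn, sum_div,
        ← sum_erase U (f := wt) (a := i₀) (if_pos rfl)]
      exact sum_congr rfl fun x hx => if_neg (ne_of_mem_erase hx)
    rw [h2, h3, ← mul_div_assoc] at hUc
    have h4 : 0 ≤ η / 24 * ((Bd.filter fun d => bs d ∈ U).card : ℝ) := by positivity
    have h5 := (div_le_div_iff_of_pos_right hg0).1 ((le_add_of_nonneg_left h4).trans hUc)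
    exact le_trans (by exact_mod_cast h1) h5
  · have h1 : ∑ i ∈ U, wt i ≤ K * (2 * L) := by
      refine (sum_le_card_nsmul U wt (2 * L) fun i _ => (w0 i).2).trans ?_
      rw [nsmul_eq_mul]
      gcongr
    have h2 : ((Bd.filter fun d => bs d ∈ U).card : ℝ) ≤ 48 * L * K := by
      have : η / 24 * ((Bd.filter fun d => bs d ∈ U).card : ℝ) ≤ η / 24 * (48 * L * K) := by
        nlinarith
      exact le_of_mul_le_mul_left this (by positivity)
    have h3 : (Bd.filter fun d => bs d ∈ U).card ≤ 48 * L * K := by exact_mod_cast h2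
    refine Nat.add_le_add_right (le_trans (le_of_eq ?_) h3) _
    congr 1
    ext d
    simp only [Bd, mem_filter, mem_univ, true_and, hmem, and_comm]

end Crest.Agent.H3.ZD
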