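import Crest.Agent.H3.ZD.T4
import Crest.Agent.H2.ZK1

/-! Unconditional form of task `T4`. -/

namespace Crest.Agent.H3.ZD

theorem t4' : Crest.Agent.H9.ZD.T4 := t4 Crest.Agent.H2.ZK.t4k

end Crest.Agent.H3.ZD
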